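import Vale.Agent.P032X.H299.OkW

/-!
# P032: the network for words without `three`

The same as the second part of `GamW.lean` with `OkW` in place of `OkC`.
-/

open Set Filter Topology Metric

noncomputable section

namespace Vale.Agent.P032.H299

open Vale.Agent.P032.Six Vale.Agent.P032.Words Vale.Agent.P032.S5.H767 Vale.Agent.P032.S5.H349
open Vale.Agent.P032.Net.H672 Vale.Agent.P032.S5.H358 Vale.Agent.P032.H942

variable {U : Fin 6 → Set ℂ} {T : ℂ → Set (Fin 6)} {X : Set (Fin 6)} {z v q q' m : ℂ}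
  {a b c d e f : Fin 6}

theorem okW_of_ee (h : Irr U T) (hK : ∀ z a b c d, DPt T z a b c d → OkW U T z)
    (hv : EE T z v) : OkW U T z := by
  obtain ⟨a, b, c, d, h1, h2⟩ := hv.names
  exact hK z a b c d (hv.dpt h h1 h2)

theorem ptW_of_eeV (h : Irr U T) (hK : ∀ z a b c d, DPt T z a b c d → OkW U T z)
    (hv : EE T z v) : PtW T z := by
  obtain ⟨a, b, c, d, h1, h2⟩ := hv.names
  exact ptW_of_ends h (hv.dpt h h1 h2) (hK z a b c d (hv.dpt h h1 h2)).ends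

/-- a common point has at most three colours or the missing colours of both centres -/
theorem common_orV (h : Irr U T) (hK : ∀ z a b c d, DPt T z a b c d → OkW U T z)
    {w v w' v' m : ℂ} (e1 : EE T w v) (e1' : EE T w' v') (hne : w ≠ w')
    (hcov : ∀ i, i ∈ T w ∨ i ∈ T w') (hmw : dist m w = 1) (hmw' : dist m w' = 1)
    (hne2 : w + w' ≠ 2 * m) :
    (T m).ncard ≤ 3 ∨ ((T w)ᶜ ⊆ T m ∧ (T w')ᶜ ⊆ T m) := by
  rcases ptW_of_eeV h hK e1 m hmw with h3 | h3 | ⟨x, hx, hr⟩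
  · exact Or.inl h3
  · rcases ptW_of_eeV h hK e1' m hmw' with h5 | h5 | ⟨x, hx, hr⟩
    · exact Or.inl h5
    · exact Or.inr ⟨h3, h5⟩
    · exact (run_false h hne.symm (fun i => (hcov i).symm) hmw' hmw
        (by rw [add_comm]; exact hne2) hx hr).elim
  · exact (run_false h hne hcov hmw hmw' hne2 hx hr).elim

/-- the field `common1` -/
theorem common1_wV (h : Irr U T) (h4 : ∀ z, (T z).ncard ≤ 4) (hS : S1 T)
    (hK : ∀ z a b c d, DPt T z a b c d → OkW U T z)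
    {w v q w' v' q' m : ℂ} (e1 : EE T w v) (e3 : T q = (T v)ᶜ)
    (e1' : EE T w' v') (e3' : T q' = (T v')ᶜ) (hne : w ≠ w') (hcov : ∀ i, i ∈ T w ∨ i ∈ T w')
    (hmw : dist m w = 1) (hmw' : dist m w' = 1) (hd : dist w w' ≤ 1) (hne2 : w + w' ≠ 2 * m)
    (hs : (T v ∩ T w ∩ T w').ncard = 1) (hs' : (T v' ∩ T w' ∩ T w).ncard = 1) :
    (T m).ncard = 3 ∧
      (T m ∩ T w = T v ∩ T w ∨ T m ∩ T w = T q ∩ T w) ∧
      (T m ∩ T w' = T v' ∩ T w' ∨ T m ∩ T w' = T q' ∩ T w') := by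
  refine e1.common h e3 e1' e3' hne hcov hmw hmw' hne2 hs hs' ?_
  rcases common_orV h hK e1 e1' hne hcov hmw hmw' hne2 with h5 | h5
  · exact h5
  · exfalso
    obtain ⟨a, b, c, d, e, f, nd, hw, hw', k1, k2⟩ := names2 h e1 e1' hcov hs hs'
    exact hS _ _ _ _ _ _ _ _ _ (bad_of h4 hmw hmw' nd hw hw' k1 k2 h5) hne2 hd

/-- the field `common2` -/
theorem common2_wV (h : Irr U T) (h4 : ∀ z, (T z).ncard ≤ 4) (hS : S2 T)
    (hK : ∀ z a b c d, DPt T z a b c d → OkW U T z)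
    {w v q w' v' q' m m' : ℂ} (e1 : EE T w v) (e3 : T q = (T v)ᶜ)
    (e1' : EE T w' v') (e3' : T q' = (T v')ᶜ) (hne : w ≠ w') (hcov : ∀ i, i ∈ T w ∨ i ∈ T w')
    (hmw : dist m w = 1) (hmw' : dist m w' = 1) (hmw2 : dist m' w = 1) (hmw2' : dist m' w' = 1)
    (hsum : m + m' = w + w') (hmm : m ≠ m')
    (hs : (T v ∩ T w ∩ T w').ncard = 1) (hs' : (T v' ∩ T w' ∩ T w).ncard = 1) :
    ((T m).ncard = 3 ∧
      (T m ∩ T w = T v ∩ T w ∨ T m ∩ T w = T q ∩ T w) ∧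
      (T m ∩ T w' = T v' ∩ T w' ∨ T m ∩ T w' = T q' ∩ T w')) ∨
    ((T m').ncard = 3 ∧
      (T m' ∩ T w = T v ∩ T w ∨ T m' ∩ T w = T q ∩ T w) ∧
      (T m' ∩ T w' = T v' ∩ T w' ∨ T m' ∩ T w' = T q' ∩ T w')) := by
  have n1 : w + w' ≠ 2 * m := by
    intro h5
    apply hmm
    rw [← hsum] at h5
    linear_combination -h5
  have n2 : w + w' ≠ 2 * m' := by
    intro h5
    apply hmm
    rw [← hsum] at h5
    linear_combination h5
  rcases common_orV h hK e1 e1' hne hcov hmw hmw' n1 with h5 | h5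
  · exact Or.inl (e1.common h e3 e1' e3' hne hcov hmw hmw' n1 hs hs' h5)
  rcases common_orV h hK e1 e1' hne hcov hmw2 hmw2' n2 with h6 | h6
  · exact Or.inr (e1.common h e3 e1' e3' hne hcov hmw2 hmw2' n2 hs hs' h6)
  · exfalso
    obtain ⟨a, b, c, d, e, f, nd, hw, hw', k1, k2⟩ := names2 h e1 e1' hcov hs hs'
    exact hS _ _ _ _ _ _ _ _ _ _ (bad_of h4 hmw hmw' nd hw hw' k1 k2 h5)
      (bad_of h4 hmw2 hmw2' nd hw hw' k1 k2 h6) hsum hmm

/-- the network -/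
theorem net_wV (h : Irr U T) (h4 : ∀ z, (T z).ncard ≤ 4)
    (hK : ∀ z a b c d, DPt T z a b c d → OkW U T z) (X : Set (Fin 6)) :
    Vale.Agent.P032.Net.H672.Net (fun z v => EE T z v ∧ T v = X)
      (fun z q => EE T z q ∧ T q = Xᶜ) := by
  have hX3 : ∀ {z v}, EE T z v ∧ T v = X → X.ncard = 3 := by
    rintro z v ⟨h1, rfl⟩; exact h1.card_v
  have hX3' : ∀ {z v}, EE T z v ∧ T v = Xᶜ → X.ncard = 3 := by
    rintro z v ⟨h1, h2⟩
    have h3 := h1.card_v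
    rw [h2] at h3
    have := Set.ncard_add_ncard_compl X
    rw [Nat.card_eq_fintype_card, Fintype.card_fin] at this
    omega
  have hc : ∀ {z v z' q}, EE T z v ∧ T v = X → EE T z' q ∧ T q = Xᶜ → T q = (T v)ᶜ := by
    rintro z v z' q ⟨-, h1⟩ ⟨-, h2⟩
    rw [h1, h2]
  have hc' : ∀ {z v z' q}, EE T z v ∧ T v = X → EE T z' q ∧ T q = Xᶜ → T v = (T q)ᶜ := by
    rintro z v z' q ⟨-, h1⟩ ⟨-, h2⟩
    rw [h1, h2, compl_compl]
  have back : ∀ {z v q v'}, EE T z v ∧ T v = X → EE T z q ∧ T q = Xᶜ → En T X z v' →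
      EE T z v' ∧ T v' = X := fun hv hq hv' =>
    ⟨hv'.ee (hX3 hv) (hv.1.arc_compl hv.2), hv'.1⟩
  have back' : ∀ {z v q v'}, EE T z v ∧ T v = X → EE T z q ∧ T q = Xᶜ → En T Xᶜ z v' →
      EE T z v' ∧ T v' = Xᶜ := fun hv hq hv' =>
    ⟨hv'.ee (ncard_compl_three (hX3 hv)) (hq.1.arc_compl hq.2), hv'.1⟩
  have h3 : ∀ {z v}, EE T z v → OkW U T z := fun hv => okW_of_ee h hK hv
  have hcl : ∀ {z v q}, EE T z v ∧ T v = X → EE T z q ∧ T q = Xᶜ → ∀ m, dist m z = 1 →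
      T m = X ∨ T m = Xᶜ → Vale.Agent.P032.S5.H349.Cln T z m := by
    rintro z v q hv hq m hm (h5 | h5)
    · exact hv.1.cln h h4 hq.1 (hc hv hq) hm (h5.trans hv.2.symm)
    · exact hq.1.cln h h4 hv.1 (hc' hv hq) hm (h5.trans hq.2.symm)
  refine
    { dist_t := fun hv => hv.1.dist
      dist_c := fun hq => hq.1.dist
      ne := fun {z z' v} hv hq => ?_
      rh := fun {z v q} hv hq => ⟨⟨hv.1.rh h h4 hq.1 (hc hv hq), hv.2⟩,
        ⟨hv.1.rh' h h4 hq.1 (hc hv hq), hq.2⟩⟩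
      three_t := ?_
      three_c := ?_
      sep := ?_
      L2 := ?_
      L3 := ?_
      L3' := ?_ }
  · have h5 := (hv.1.en hv.2).ne (hX3 hv) (hq.1.en hq.2)
    exact h5 rfl
  · rintro v z₁ z₂ z₃ z₄ ⟨a1, q1, b1⟩ ⟨a2, q2, b2⟩ ⟨a3, q3, b3⟩ ⟨a4, q4, b4⟩
    exact h.en_three (hX3 a1) ⟨a1.1.en a1.2, q1, b1.1.en b1.2⟩ ⟨a2.1.en a2.2, q2, b2.1.en b2.2⟩
      ⟨a3.1.en a3.2, q3, b3.1.en b3.2⟩ ⟨a4.1.en a4.2, q4, b4.1.en b4.2⟩
  · rintro q z₁ z₂ z₃ z₄ ⟨a1, q1, b1⟩ ⟨a2, q2, b2⟩ ⟨a3, q3, b3⟩ ⟨a4, q4, b4⟩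
    have e : ∀ {z v}, EE T z v ∧ T v = X → En T Xᶜᶜ z v := fun hv =>
      hv.1.en (by rw [compl_compl]; exact hv.2)
    exact h.en_three (X := Xᶜ) (ncard_compl_three (hX3' a1))
      ⟨a1.1.en a1.2, q1, e b1⟩ ⟨a2.1.en a2.2, q2, e b2⟩
      ⟨a3.1.en a3.2, q3, e b3⟩ ⟨a4.1.en a4.2, q4, e b4⟩
  · rintro z v₁ v₂ q₁ q₂ hv₁ hv₂ hq₁ hq₂
    have e : ∀ {v q}, EE T z v ∧ T v = X → EE T z q ∧ T q = Xᶜ → T v ∩ T z = T z \ T q := by
      rintro v q ⟨-, h1⟩ ⟨-, h2⟩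
      rw [h1, h2, Set.sdiff_compl, inter_comm]
    have l1 := hq₁.1.lp2 h hv₁.1 hv₂.1 (e hv₁ hq₁) (e hv₂ hq₁)
    have l2 := hq₂.1.lp2 h hv₁.1 hv₂.1 (e hv₁ hq₂) (e hv₂ hq₂)
    have nz : ∀ {v q}, EE T z v ∧ T v = X → EE T z q ∧ T q = Xᶜ →
        cr (q - z) (v - z) ≠ 0 := by
      intro v q hv hq
      refine cr_ne_of hq.1.dist hv.1.dist ((hv.1.en hv.2).ne (hX3 hv) (hq.1.en hq.2)).symm ?_
      rw [add_comm]
      exact hv.1.anti h hq.1 (hc hv hq)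
    have n11 := nz hv₁ hq₁
    have n21 := nz hv₂ hq₁
    have n12 := nz hv₁ hq₂
    have n22 := nz hv₂ hq₂
    have hP : (0 < cr (q₁ - z) (v₁ - z) * cr (q₁ - z) (v₂ - z)) ↔
        0 < cr (q₂ - z) (v₁ - z) * cr (q₂ - z) (v₂ - z) := l1.symm.trans l2
    have hpos : 0 < (cr (q₁ - z) (v₁ - z) * cr (q₁ - z) (v₂ - z)) *
        (cr (q₂ - z) (v₁ - z) * cr (q₂ - z) (v₂ - z)) := by
      rcases lt_or_gt_of_ne (mul_ne_zero n11 n21) with h5 | h5
      · rcases lt_or_gt_of_ne (mul_ne_zero n12 n22) with h6 | h6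
        · exact mul_pos_of_neg_of_neg h5 h6
        · exact absurd (hP.2 h6) (not_lt.2 h5.le)
      · exact mul_pos h5 (hP.1 h5)
    refine hpos.trans_le (le_of_eq ?_)
    unfold cr Vale.Agent.P032.Net.H672.dt
    ring
  · intro z v q hv hq
    rcases L2_okW h (hX3 hv) (h3 hv.1) (hv.1.pairs h hv.2) (hcl hv hq) (hv.1.en hv.2)
      (hq.1.en hq.2) with ⟨v', h5, h6⟩ | ⟨q', h5, h6⟩
    · exact Or.inl ⟨v', h5, back hv hq h6⟩
    · exact Or.inr ⟨q', h5, back' hv hq h6⟩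
  · intro z v q q' hv hq hq' hne hu1 hu2
    exact L3_okW h (hX3 hv) (h3 hv.1) (hv.1.pairs h hv.2) (hcl hv hq) (hv.1.en hv.2)
      (hq.1.en hq.2) (hq'.1.en hq'.2) hne (fun v' h5 => hu1 v' (back hv hq h5))
      (fun p h5 => hu2 p (back' hv hq h5))
  · intro z q v v' hq hv hv' hne hu1 hu2
    have e : ∀ {z v}, EE T z v ∧ T v = X → T v = Xᶜᶜ := fun hv => by
      rw [compl_compl]; exact hv.2
    refine L3_okW (X := Xᶜ) h (ncard_compl_three (hX3 hv)) (h3 hv.1) (hq.1.pairs h hq.2) ?_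
      (hq.1.en hq.2) (hv.1.en (e hv)) (hv'.1.en (e hv')) hne
      (fun v' h5 => hu1 v' (back' hv hq h5))
      (fun p h5 => hu2 p (back hv hq (by rw [compl_compl] at h5; exact h5)))
    intro m hm h5
    refine hcl hv hq m hm ?_
    rw [compl_compl] at h5
    exact h5.symm

/-- the arc fields -/
theorem arcFields_wV (h : Irr U T) (h4 : ∀ z, (T z).ncard ≤ 4)
    (hK : ∀ z a b c d, DPt T z a b c d → OkW U T z) : ArcFields U T (AA T) where
  arc_ex := by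
    rintro z v ⟨hv, q, hq, hc⟩
    exact arc_ex_okW h (okW_of_ee h hK hv) hv hq hc
  arc_end := EE.fld_end
  arc_pair := EE.fld_pair
  arc_len := EE.fld_len h h4
  arc_uniq := EE.fld_uniq h h4
  arc_symm := EE.fld_symm
  arc_ori := EE.fld_ori h h4
  arc_inn := EE.fld_inn h

/-- the network with palettes -/
theorem dnet_wV (h : Irr U T) (h4 : ∀ z, (T z).ncard ≤ 4) (hS1 : S1 T) (hS2 : S2 T)
    (hK : ∀ z a b c d, DPt T z a b c d → OkW U T z) :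
    DNetW T (EE T) (AA T) (ore T) (inn U T) where
  net := net_wV h h4 hK
  card_z := fun hv => hv.card_z
  card_v := fun hv => hv.card_v
  card_i := fun hv => hv.card_i'
  cov := fun hv hq hc => hv.cov h h4 hq hc
  ori := fun {z v} _ => ore_or T z v
  inn_mem := fun hv => hv.inn_mem h
  LP1 := fun hv hq hc => hv.lp1 h h4 hq hc
  LP2 := fun hq hv hv' h1 h2 => hq.1.lp2 h hv.1 hv'.1 h1 h2
  LP3 := fun hv hq hc hv' hp hc' hcz hcw => hv.lp3 h h4 hq hc hv' hp hc' hcz hcw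
  arc_ex := (arcFields_wV h h4 hK).arc_ex
  arc_end := EE.fld_end
  arc_pair := EE.fld_pair
  arc_len := EE.fld_len h h4
  arc_uniq := EE.fld_uniq h h4
  arc_symm := EE.fld_symm
  arc_ori := EE.fld_ori h h4
  arc_inn := EE.fld_inn h
  auto := fun hv hq hc hm hTm => hv.auto h h4 hq hc hm hTm
  common1 := fun e1 _ e3 e1' _ e3' hne hcv d d' hd n s s' =>
    common1_wV h h4 hS1 hK e1 e3 e1' e3' hne hcv d d' hd n s s'
  common2 := fun e1 _ e3 e1' _ e3' hne hcv d d' d2 d2' hs hm s s' =>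
    common2_wV h h4 hS2 hK e1 e3 e1' e3' hne hcv d d' d2 d2' hs hm s s'
  lemX := fun hu' hpu hpr ht hT => hu'.lemX h hpu hpr ht hT

/-- **No two-pair centre**, circles with a word and clean ends -/
theorem no_D_of_okW (h : Irr U T) (h4 : ∀ z, (T z).ncard ≤ 4) (hS1 : S1 T) (hS2 : S2 T)
    (hK : ∀ z a b c d, DPt T z a b c d → OkW U T z) :
    ∀ z a b c d, DPt T z a b c d → False := by
  intro z a b c d hz
  obtain ⟨v, q, hv, hq, hc⟩ := start_okW h h4 hz (hK z a b c d hz)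
  exact (dnet_wV h h4 hS1 hS2 hK).false hv hq hc


end Vale.Agent.P032.H299
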