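import Vale.Agent.P032X.H942.Gam
import Vale.Agent.P032X.H299.NetW

/-!
# P032: no two-pair centre, common points with all missing colours allowed

A point of the circle of a two-pair centre with both missing colours and four colours is only a
problem of the field `common` if it is a common point of two such circles with the palette of all
missing colours (`Bad`).  `S1`: no such point if the centres have distance at most one.  `S2`: the
two common points are not both of this kind.  `no_D_of_okC`: with `S1` and `S2` there is no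
two-pair centre if all circles of two-pair centres are `OkC` (a word, clean ends).
-/

open Set Filter Topology Metric

noncomputable section

namespace Vale.Agent.P032.H299

open Vale.Agent.P032.Six Vale.Agent.P032.Words Vale.Agent.P032.S5.H767 Vale.Agent.P032.S5.H349
open Vale.Agent.P032.Net.H672 Vale.Agent.P032.S5.H358 Vale.Agent.P032.H942

variable {U : Fin 6 → Set ℂ} {T : ℂ → Set (Fin 6)} {X : Set (Fin 6)} {z v q q' m : ℂ}
  {a b c d e f : Fin 6}

/-- a common point `m` of the circles of two two-pair centres `w` (`ab|cd`), `w'` (`eb|fd`) with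
the palette of all missing colours -/
structure Bad (T : ℂ → Set (Fin 6)) (w w' m : ℂ) (a b c d e f : Fin 6) : Prop where
  nd : [a, b, c, d, e, f].Nodup
  hw : DPt T w a b c d
  hw' : DPt T w' e b f d
  dw : dist m w = 1
  dw' : dist m w' = 1
  pal : T m = {a, c, e, f}

/-- no bad common point if the centres have distance at most one -/
def S1 (T : ℂ → Set (Fin 6)) : Prop :=
  ∀ w w' m a b c d e f, Bad T w w' m a b c d e f → w + w' ≠ 2 * m → dist w w' ≤ 1 → False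

/-- the two common points are not both bad -/
def S2 (T : ℂ → Set (Fin 6)) : Prop :=
  ∀ w w' m m' a b c d e f, Bad T w w' m a b c d e f → Bad T w w' m' a b c d e f →
    m + m' = w + w' → m ≠ m' → False

theorem split_pair {A B : Set (Fin 6)} (h2 : A.ncard = 2) (h1 : (A ∩ B).ncard = 1) :
    ∃ a b, a ≠ b ∧ A = {a, b} ∧ a ∉ B ∧ b ∈ B := by
  obtain ⟨x, y, hxy, rfl⟩ := Set.ncard_eq_two.1 h2
  by_cases hx : x ∈ B <;> by_cases hy : y ∈ B
  · exfalso
    have h3 : ({x, y} : Set (Fin 6)) ∩ B = {x, y} := by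
      rw [inter_eq_left]
      rintro i (rfl | rfl)
      exacts [hx, hy]
    rw [h3, Set.ncard_pair hxy] at h1
    omega
  · exact ⟨y, x, hxy.symm, Set.pair_comm _ _, hy, hx⟩
  · exact ⟨x, y, hxy, rfl, hx, hy⟩
  · exfalso
    have h3 : ({x, y} : Set (Fin 6)) ∩ B = ∅ := by
      rw [Set.eq_empty_iff_forall_notMem]
      rintro i ⟨rfl | rfl, h5⟩
      exacts [hx h5, hy h5]
    rw [h3, Set.ncard_empty] at h1
    omega

theorem compl_card {A : Set (Fin 6)} (h : A.ncard = 4) : Aᶜ.ncard = 2 := by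
  have h5 := Set.ncard_add_ncard_compl A
  rw [Nat.card_eq_fintype_card, Fintype.card_fin, h] at h5
  omega

theorem inter_card {A B : Set (Fin 6)} (hA : A.ncard = 4) (hB : B.ncard = 4)
    (hcov : ∀ i, i ∈ A ∨ i ∈ B) : (A ∩ B).ncard = 2 := by
  have hun : A ∪ B = univ := eq_univ_of_forall hcov
  have h1 := Set.ncard_union_add_ncard_inter A B (Set.toFinite _) (Set.toFinite _)
  rw [hun, Set.ncard_univ, Nat.card_eq_fintype_card, Fintype.card_fin, hA, hB] at h1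
  omega

theorem compl_pair {A : Set (Fin 6)} (h : A.ncard = 4) {x y : Fin 6} (hxy : x ≠ y) (hx : x ∉ A)
    (hy : y ∉ A) : Aᶜ = {x, y} := by
  refine (Set.eq_of_subset_of_ncard_le ?_ ?_ (Set.toFinite _)).symm
  · rintro i (rfl | rfl)
    exacts [hx, hy]
  · rw [compl_card h, Set.ncard_pair hxy]

/-- the two pairs of a centre, cut by the other centre -/
theorem two_cuts {w v w' : ℂ} (e1 : EE T w v) (h4 : (T w').ncard = 4)
    (hcov : ∀ i, i ∈ T w ∨ i ∈ T w') (hs : (T v ∩ T w ∩ T w').ncard = 1) :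
    ∃ a b c d, a ≠ b ∧ c ≠ d ∧ T w ∩ T v = {a, b} ∧ T w \ T v = {c, d} ∧ a ∉ T w' ∧ b ∈ T w' ∧
      c ∉ T w' ∧ d ∈ T w' := by
  have h1 : (T w ∩ T v ∩ T w').ncard = 1 := by rw [inter_comm (T w) (T v)]; exact hs
  have h2 : ((T w \ T v) ∩ T w').ncard = 1 := by
    have h3 : (T w ∩ T w').ncard = 2 := inter_card e1.card_z h4 hcov
    have h5 := Set.ncard_inter_add_ncard_sdiff_eq_ncard (T w ∩ T w') (T v) (Set.toFinite _)
    have e5 : T w ∩ T w' ∩ T v = T w ∩ T v ∩ T w' := by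
      ext i; simp only [mem_inter_iff]; tauto
    have e6 : (T w ∩ T w') \ T v = (T w \ T v) ∩ T w' := by
      ext i; simp only [mem_inter_iff, Set.mem_sdiff]; tauto
    rw [e5, e6, h1, h3] at h5
    omega
  obtain ⟨a, b, hab, e2, ha, hb⟩ := split_pair e1.card_i h1
  obtain ⟨c, d, hcd, e3, hc, hd⟩ := split_pair e1.card_s h2
  exact ⟨a, b, c, d, hab, hcd, e2, e3, ha, hb, hc, hd⟩

/-- names of the colours of two centres which have all six colours -/
theorem names2 (h : Irr U T) {w v w' v' : ℂ} (e1 : EE T w v) (e1' : EE T w' v')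
    (hcov : ∀ i, i ∈ T w ∨ i ∈ T w') (hs : (T v ∩ T w ∩ T w').ncard = 1)
    (hs' : (T v' ∩ T w' ∩ T w).ncard = 1) :
    ∃ a b c d e f, [a, b, c, d, e, f].Nodup ∧ DPt T w a b c d ∧ DPt T w' e b f d ∧
      (T w)ᶜ = {e, f} ∧ (T w')ᶜ = {a, c} := by
  obtain ⟨a, b, c, d, hab, hcd, h1, h2, ha, hb, hc, hd⟩ := two_cuts e1 e1'.card_z hcov hs
  obtain ⟨e, x, f, y, hex, hfy, h1', h2', he, hx, hf, hy⟩ :=
    two_cuts e1' e1.card_z (fun i => (hcov i).symm) hs'
  have hw : DPt T w a b c d := e1.dpt h h1 h2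
  have hw' : DPt T w' e x f y := e1'.dpt h h1' h2'
  have memw : ∀ {i}, i ∈ T w ↔ i = a ∨ i = b ∨ i = c ∨ i = d := by
    intro i; rw [hw.pal]; simp
  have hxw' : x ∈ T w' := by rw [hw'.pal]; simp
  have hyw' : y ∈ T w' := by rw [hw'.pal]; simp
  have hef : e ≠ f := hw'.ac
  have hac : a ≠ c := hw.ac
  have k1 : (T w)ᶜ = {e, f} := compl_pair e1.card_z hef he hf
  have k2 : (T w')ᶜ = {a, c} := compl_pair e1'.card_z hac ha hc
  have nd : ∀ {e f : Fin 6}, e ∉ T w → f ∉ T w → e ≠ f → [a, b, c, d, e, f].Nodup := by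
    intro e f he hf hef
    rw [memw] at he hf
    push Not at he hf
    have := hw.ab; have := hw.ac; have := hw.ad; have := hw.bc; have := hw.bd; have := hw.cd
    simp only [List.nodup_cons, List.mem_cons, List.not_mem_nil, or_false, not_or, not_false_eq_true,
      List.nodup_nil, and_true]
    refine ⟨⟨?_, ?_, ?_, ?_, ?_⟩, ⟨?_, ?_, ?_, ?_⟩, ⟨?_, ?_, ?_⟩, ⟨?_, ?_⟩, ?_⟩ <;> tauto
  have hxc : x = b ∨ x = d := by
    rcases memw.1 hx with r | r | r | r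
    · exact absurd (r ▸ hxw') ha
    · exact Or.inl r
    · exact absurd (r ▸ hxw') hc
    · exact Or.inr r
  have hyc : y = b ∨ y = d := by
    rcases memw.1 hy with r | r | r | r
    · exact absurd (r ▸ hyw') ha
    · exact Or.inl r
    · exact absurd (r ▸ hyw') hc
    · exact Or.inr r
  have hxy : x ≠ y := hw'.bd
  rcases hxc with rfl | rfl <;> rcases hyc with rfl | rfl
  · exact absurd rfl hxy
  · exact ⟨a, x, c, y, e, f, nd he hf hef, hw, hw', k1, k2⟩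
  · refine ⟨a, y, c, x, f, e, nd hf he hef.symm, hw, hw'.swap, ?_, k2⟩
    rw [k1, Set.pair_comm]
  · exact absurd rfl hxy

/-- the palette of a common point with the missing colours of both centres -/
theorem pal_m {w w' m : ℂ} {a c e f : Fin 6} (hac : a ≠ c) (hef : e ≠ f) (hae : a ≠ e)
    (haf : a ≠ f) (hce : c ≠ e) (hcf : c ≠ f) (h1 : (T w)ᶜ = {e, f}) (h2 : (T w')ᶜ = {a, c})
    (hm : (T m).ncard ≤ 4) (k1 : (T w)ᶜ ⊆ T m) (k2 : (T w')ᶜ ⊆ T m) : T m = {a, c, e, f} := by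
  rw [h1] at k1
  rw [h2] at k2
  refine (Set.eq_of_subset_of_ncard_le ?_ ?_ (Set.toFinite _)).symm
  · rintro i (rfl | rfl | rfl | rfl)
    · exact k2 (by simp)
    · exact k2 (by simp)
    · exact k1 (by simp)
    · exact k1 (by simp)
  · have h3 : ({a, c, e, f} : Set (Fin 6)).ncard = 4 := by
      rw [Set.ncard_insert_of_notMem (by simp; tauto), Set.ncard_insert_of_notMem (by simp; tauto),
        Set.ncard_pair hef]
    omega

/-- a good circle, weak form: a word, and a four coloured point without one of the missing colours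
is inside a run of the other one -/
def PtW (T : ℂ → Set (Fin 6)) (z : ℂ) : Prop :=
  ∀ y, dist y z = 1 → (T y).ncard ≤ 3 ∨ (T z)ᶜ ⊆ T y ∨
    ∃ x, x ∉ T z ∧ ∀ᶠ q in 𝓝[sphere z 1] y, x ∈ T q

theorem ptW_of_ends (h : Irr U T) (hz : DPt T z a b c d)
    (hE : ∀ P : Set (Fin 6), P ⊆ T z → P.ncard = 2 → ∀ y, y ∈ closure (Ex T z P) →
      (T y).ncard ≤ 3) : PtW T z := by
  obtain ⟨e, f, nd⟩ := hz.exists_nodup
  have C := ctr_of_dpt h hz nd
  intro y hy
  by_cases h3 : (T y).ncard ≤ 3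
  · exact Or.inl h3
  push Not at h3
  by_cases hsub : (T z)ᶜ ⊆ T y
  · exact Or.inr (Or.inl hsub)
  · right; right
    have main : ∀ {e f : Fin 6}, Ctr U T z a b c d e f → f ∉ T y →
        ∃ x, x ∉ T z ∧ ∀ᶠ q in 𝓝[sphere z 1] y, x ∈ T q := by
      intro e f C hf
      obtain ⟨⟨ab, ac, ad, ae, af⟩, ⟨bc, bd, be, bf⟩, ⟨cd, ce, cf⟩, ⟨de, df⟩, ef⟩ := C.sep
      have he : e ∉ T z := by
        have h1 : e ∈ (T z)ᶜ := by rw [← ef_eq C]; exact Or.inl rfl
        exact h1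
      refine ⟨e, he, ?_⟩
      have n2 : y ∉ closure (Ex T z {a, b}) := fun h5 => by
        have := hE {a, b} (by rw [C.pal]; rintro i (rfl | rfl) <;> simp) (Set.ncard_pair ab) y h5
        omega
      have n3 : y ∉ closure (Ex T z {c, d}) := fun h5 => by
        have := hE {c, d} (by rw [C.pal]; rintro i (rfl | rfl) <;> simp) (Set.ncard_pair cd) y h5
        omega
      have o2 : ∀ᶠ q in 𝓝 y, q ∉ closure (Ex T z {a, b}) :=
        isClosed_closure.isOpen_compl.mem_nhds n2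
      have o3 : ∀ᶠ q in 𝓝 y, q ∉ closure (Ex T z {c, d}) :=
        isClosed_closure.isOpen_compl.mem_nhds n3
      filter_upwards [mem_nhdsWithin_of_mem_nhds o2, mem_nhdsWithin_of_mem_nhds o3,
        mem_nhdsWithin_of_mem_nhds (h.nhd y), self_mem_nhdsWithin] with q k2 k3 k4 k5
      obtain ⟨l, hl⟩ := C.cover (y := q) k5
      fin_cases l
      · exact hl.2
      · exact absurd (k4 hl.2) hf
      · exact absurd hl k2
      · exact absurd hl k3
    rw [← ef_eq C, Set.not_subset] at hsub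
    obtain ⟨i, hi, hiy⟩ := hsub
    rcases hi with rfl | hi
    · exact main C.swapEF hiy
    · have hi : i = f := hi
      subst hi
      exact main C hiy

theorem okC_of_ee (h : Irr U T) (hK : ∀ z a b c d, DPt T z a b c d → OkC U T z)
    (hv : EE T z v) : OkC U T z := by
  obtain ⟨a, b, c, d, h1, h2⟩ := hv.names
  exact hK z a b c d (hv.dpt h h1 h2)

theorem ptW_of_ee (h : Irr U T) (hK : ∀ z a b c d, DPt T z a b c d → OkC U T z)
    (hv : EE T z v) : PtW T z := by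
  obtain ⟨a, b, c, d, h1, h2⟩ := hv.names
  exact ptW_of_ends h (hv.dpt h h1 h2) (hK z a b c d (hv.dpt h h1 h2)).ends

/-- a common point has at most three colours or the missing colours of both centres -/
theorem common_or (h : Irr U T) (hK : ∀ z a b c d, DPt T z a b c d → OkC U T z)
    {w v w' v' m : ℂ} (e1 : EE T w v) (e1' : EE T w' v') (hne : w ≠ w')
    (hcov : ∀ i, i ∈ T w ∨ i ∈ T w') (hmw : dist m w = 1) (hmw' : dist m w' = 1)
    (hne2 : w + w' ≠ 2 * m) :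
    (T m).ncard ≤ 3 ∨ ((T w)ᶜ ⊆ T m ∧ (T w')ᶜ ⊆ T m) := by
  rcases ptW_of_ee h hK e1 m hmw with h3 | h3 | ⟨x, hx, hr⟩
  · exact Or.inl h3
  · rcases ptW_of_ee h hK e1' m hmw' with h5 | h5 | ⟨x, hx, hr⟩
    · exact Or.inl h5
    · exact Or.inr ⟨h3, h5⟩
    · exact (run_false h hne.symm (fun i => (hcov i).symm) hmw' hmw
        (by rw [add_comm]; exact hne2) hx hr).elim
  · exact (run_false h hne hcov hmw hmw' hne2 hx hr).elim

/-- the palette of a bad common point -/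
theorem bad_of (h4 : ∀ z, (T z).ncard ≤ 4) {w w' m : ℂ} (hmw : dist m w = 1)
    (hmw' : dist m w' = 1) (nd : [a, b, c, d, e, f].Nodup) (hw : DPt T w a b c d)
    (hw' : DPt T w' e b f d) (k1 : (T w)ᶜ = {e, f}) (k2 : (T w')ᶜ = {a, c})
    (hm : (T w)ᶜ ⊆ T m ∧ (T w')ᶜ ⊆ T m) : Bad T w w' m a b c d e f := by
  refine ⟨nd, hw, hw', hmw, hmw', ?_⟩
  simp only [List.nodup_cons, List.mem_cons, List.not_mem_nil, or_false, not_or,
    not_false_eq_true, List.nodup_nil, and_true] at nd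
  obtain ⟨⟨ab, ac, ad, ae, af⟩, ⟨bc, bd, be, bf⟩, ⟨cd, ce, cf⟩, ⟨de, df⟩, ef⟩ := nd
  exact pal_m ac ef ae af ce cf k1 k2 (h4 m) hm.1 hm.2

/-- the field `common1` -/
theorem common1_w (h : Irr U T) (h4 : ∀ z, (T z).ncard ≤ 4) (hS : S1 T)
    (hK : ∀ z a b c d, DPt T z a b c d → OkC U T z)
    {w v q w' v' q' m : ℂ} (e1 : EE T w v) (e3 : T q = (T v)ᶜ)
    (e1' : EE T w' v') (e3' : T q' = (T v')ᶜ) (hne : w ≠ w') (hcov : ∀ i, i ∈ T w ∨ i ∈ T w')
    (hmw : dist m w = 1) (hmw' : dist m w' = 1) (hd : dist w w' ≤ 1) (hne2 : w + w' ≠ 2 * m)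
    (hs : (T v ∩ T w ∩ T w').ncard = 1) (hs' : (T v' ∩ T w' ∩ T w).ncard = 1) :
    (T m).ncard = 3 ∧
      (T m ∩ T w = T v ∩ T w ∨ T m ∩ T w = T q ∩ T w) ∧
      (T m ∩ T w' = T v' ∩ T w' ∨ T m ∩ T w' = T q' ∩ T w') := by
  refine e1.common h e3 e1' e3' hne hcov hmw hmw' hne2 hs hs' ?_
  rcases common_or h hK e1 e1' hne hcov hmw hmw' hne2 with h5 | h5
  · exact h5
  · exfalso
    obtain ⟨a, b, c, d, e, f, nd, hw, hw', k1, k2⟩ := names2 h e1 e1' hcov hs hs'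
    exact hS _ _ _ _ _ _ _ _ _ (bad_of h4 hmw hmw' nd hw hw' k1 k2 h5) hne2 hd

/-- the field `common2` -/
theorem common2_w (h : Irr U T) (h4 : ∀ z, (T z).ncard ≤ 4) (hS : S2 T)
    (hK : ∀ z a b c d, DPt T z a b c d → OkC U T z)
    {w v q w' v' q' m m' : ℂ} (e1 : EE T w v) (e3 : T q = (T v)ᶜ)
    (e1' : EE T w' v') (e3' : T q' = (T v')ᶜ) (hne : w ≠ w') (hcov : ∀ i, i ∈ T w ∨ i ∈ T w')
    (hmw : dist m w = 1) (hmw' : dist m w' = 1) (hmw2 : dist m' w = 1) (hmw2' : dist m' w' = 1)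
    (hsum : m + m' = w + w') (hmm : m ≠ m')
    (hs : (T v ∩ T w ∩ T w').ncard = 1) (hs' : (T v' ∩ T w' ∩ T w).ncard = 1) :
    ((T m).ncard = 3 ∧
      (T m ∩ T w = T v ∩ T w ∨ T m ∩ T w = T q ∩ T w) ∧
      (T m ∩ T w' = T v' ∩ T w' ∨ T m ∩ T w' = T q' ∩ T w')) ∨
    ((T m').ncard = 3 ∧
      (T m' ∩ T w = T v ∩ T w ∨ T m' ∩ T w = T q ∩ T w) ∧
      (T m' ∩ T w' = T v' ∩ T w' ∨ T m' ∩ T w' = T q' ∩ T w')) := by
  have n1 : w + w' ≠ 2 * m := by
    intro h5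
    apply hmm
    rw [← hsum] at h5
    linear_combination -h5
  have n2 : w + w' ≠ 2 * m' := by
    intro h5
    apply hmm
    rw [← hsum] at h5
    linear_combination h5
  rcases common_or h hK e1 e1' hne hcov hmw hmw' n1 with h5 | h5
  · exact Or.inl (e1.common h e3 e1' e3' hne hcov hmw hmw' n1 hs hs' h5)
  rcases common_or h hK e1 e1' hne hcov hmw2 hmw2' n2 with h6 | h6
  · exact Or.inr (e1.common h e3 e1' e3' hne hcov hmw2 hmw2' n2 hs hs' h6)
  · exfalso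
    obtain ⟨a, b, c, d, e, f, nd, hw, hw', k1, k2⟩ := names2 h e1 e1' hcov hs hs'
    exact hS _ _ _ _ _ _ _ _ _ _ (bad_of h4 hmw hmw' nd hw hw' k1 k2 h5)
      (bad_of h4 hmw2 hmw2' nd hw hw' k1 k2 h6) hsum hmm

/-- the network -/
theorem net_w (h : Irr U T) (h4 : ∀ z, (T z).ncard ≤ 4)
    (hK : ∀ z a b c d, DPt T z a b c d → OkC U T z) (X : Set (Fin 6)) :
    Vale.Agent.P032.Net.H672.Net (fun z v => EE T z v ∧ T v = X)
      (fun z q => EE T z q ∧ T q = Xᶜ) := by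
  have hX3 : ∀ {z v}, EE T z v ∧ T v = X → X.ncard = 3 := by
    rintro z v ⟨h1, rfl⟩; exact h1.card_v
  have hX3' : ∀ {z v}, EE T z v ∧ T v = Xᶜ → X.ncard = 3 := by
    rintro z v ⟨h1, h2⟩
    have h3 := h1.card_v
    rw [h2] at h3
    have := Set.ncard_add_ncard_compl X
    rw [Nat.card_eq_fintype_card, Fintype.card_fin] at this
    omega
  have hc : ∀ {z v z' q}, EE T z v ∧ T v = X → EE T z' q ∧ T q = Xᶜ → T q = (T v)ᶜ := by
    rintro z v z' q ⟨-, h1⟩ ⟨-, h2⟩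
    rw [h1, h2]
  have hc' : ∀ {z v z' q}, EE T z v ∧ T v = X → EE T z' q ∧ T q = Xᶜ → T v = (T q)ᶜ := by
    rintro z v z' q ⟨-, h1⟩ ⟨-, h2⟩
    rw [h1, h2, compl_compl]
  have back : ∀ {z v q v'}, EE T z v ∧ T v = X → EE T z q ∧ T q = Xᶜ → En T X z v' →
      EE T z v' ∧ T v' = X := fun hv hq hv' =>
    ⟨hv'.ee (hX3 hv) (hv.1.arc_compl hv.2), hv'.1⟩
  have back' : ∀ {z v q v'}, EE T z v ∧ T v = X → EE T z q ∧ T q = Xᶜ → En T Xᶜ z v' →
      EE T z v' ∧ T v' = Xᶜ := fun hv hq hv' =>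
    ⟨hv'.ee (ncard_compl_three (hX3 hv)) (hq.1.arc_compl hq.2), hv'.1⟩
  have h3 : ∀ {z v}, EE T z v → OkC U T z := fun hv => okC_of_ee h hK hv
  have hcl : ∀ {z v q}, EE T z v ∧ T v = X → EE T z q ∧ T q = Xᶜ → ∀ m, dist m z = 1 →
      T m = X ∨ T m = Xᶜ → Vale.Agent.P032.S5.H349.Cln T z m := by
    rintro z v q hv hq m hm (h5 | h5)
    · exact hv.1.cln h h4 hq.1 (hc hv hq) hm (h5.trans hv.2.symm)
    · exact hq.1.cln h h4 hv.1 (hc' hv hq) hm (h5.trans hq.2.symm)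
  refine
    { dist_t := fun hv => hv.1.dist
      dist_c := fun hq => hq.1.dist
      ne := fun {z z' v} hv hq => ?_
      rh := fun {z v q} hv hq => ⟨⟨hv.1.rh h h4 hq.1 (hc hv hq), hv.2⟩,
        ⟨hv.1.rh' h h4 hq.1 (hc hv hq), hq.2⟩⟩
      three_t := ?_
      three_c := ?_
      sep := ?_
      L2 := ?_
      L3 := ?_
      L3' := ?_ }
  · have h5 := (hv.1.en hv.2).ne (hX3 hv) (hq.1.en hq.2)
    exact h5 rfl
  · rintro v z₁ z₂ z₃ z₄ ⟨a1, q1, b1⟩ ⟨a2, q2, b2⟩ ⟨a3, q3, b3⟩ ⟨a4, q4, b4⟩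
    exact h.en_three (hX3 a1) ⟨a1.1.en a1.2, q1, b1.1.en b1.2⟩ ⟨a2.1.en a2.2, q2, b2.1.en b2.2⟩
      ⟨a3.1.en a3.2, q3, b3.1.en b3.2⟩ ⟨a4.1.en a4.2, q4, b4.1.en b4.2⟩
  · rintro q z₁ z₂ z₃ z₄ ⟨a1, q1, b1⟩ ⟨a2, q2, b2⟩ ⟨a3, q3, b3⟩ ⟨a4, q4, b4⟩
    have e : ∀ {z v}, EE T z v ∧ T v = X → En T Xᶜᶜ z v := fun hv =>
      hv.1.en (by rw [compl_compl]; exact hv.2)
    exact h.en_three (X := Xᶜ) (ncard_compl_three (hX3' a1))
      ⟨a1.1.en a1.2, q1, e b1⟩ ⟨a2.1.en a2.2, q2, e b2⟩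
      ⟨a3.1.en a3.2, q3, e b3⟩ ⟨a4.1.en a4.2, q4, e b4⟩
  · rintro z v₁ v₂ q₁ q₂ hv₁ hv₂ hq₁ hq₂
    have e : ∀ {v q}, EE T z v ∧ T v = X → EE T z q ∧ T q = Xᶜ → T v ∩ T z = T z \ T q := by
      rintro v q ⟨-, h1⟩ ⟨-, h2⟩
      rw [h1, h2, Set.sdiff_compl, inter_comm]
    have l1 := hq₁.1.lp2 h hv₁.1 hv₂.1 (e hv₁ hq₁) (e hv₂ hq₁)
    have l2 := hq₂.1.lp2 h hv₁.1 hv₂.1 (e hv₁ hq₂) (e hv₂ hq₂)
    have nz : ∀ {v q}, EE T z v ∧ T v = X → EE T z q ∧ T q = Xᶜ →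
        cr (q - z) (v - z) ≠ 0 := by
      intro v q hv hq
      refine cr_ne_of hq.1.dist hv.1.dist ((hv.1.en hv.2).ne (hX3 hv) (hq.1.en hq.2)).symm ?_
      rw [add_comm]
      exact hv.1.anti h hq.1 (hc hv hq)
    have n11 := nz hv₁ hq₁
    have n21 := nz hv₂ hq₁
    have n12 := nz hv₁ hq₂
    have n22 := nz hv₂ hq₂
    have hP : (0 < cr (q₁ - z) (v₁ - z) * cr (q₁ - z) (v₂ - z)) ↔
        0 < cr (q₂ - z) (v₁ - z) * cr (q₂ - z) (v₂ - z) := l1.symm.trans l2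
    have hpos : 0 < (cr (q₁ - z) (v₁ - z) * cr (q₁ - z) (v₂ - z)) *
        (cr (q₂ - z) (v₁ - z) * cr (q₂ - z) (v₂ - z)) := by
      rcases lt_or_gt_of_ne (mul_ne_zero n11 n21) with h5 | h5
      · rcases lt_or_gt_of_ne (mul_ne_zero n12 n22) with h6 | h6
        · exact mul_pos_of_neg_of_neg h5 h6
        · exact absurd (hP.2 h6) (not_lt.2 h5.le)
      · exact mul_pos h5 (hP.1 h5)
    refine hpos.trans_le (le_of_eq ?_)
    unfold cr Vale.Agent.P032.Net.H672.dt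
    ring
  · intro z v q hv hq
    rcases L2_ok h (hX3 hv) (h3 hv.1) (hv.1.pairs h hv.2) (hcl hv hq) (hv.1.en hv.2)
      (hq.1.en hq.2) with ⟨v', h5, h6⟩ | ⟨q', h5, h6⟩
    · exact Or.inl ⟨v', h5, back hv hq h6⟩
    · exact Or.inr ⟨q', h5, back' hv hq h6⟩
  · intro z v q q' hv hq hq' hne hu1 hu2
    exact L3_ok h (hX3 hv) (h3 hv.1) (hv.1.pairs h hv.2) (hcl hv hq) (hv.1.en hv.2)
      (hq.1.en hq.2) (hq'.1.en hq'.2) hne (fun v' h5 => hu1 v' (back hv hq h5))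
      (fun p h5 => hu2 p (back' hv hq h5))
  · intro z q v v' hq hv hv' hne hu1 hu2
    have e : ∀ {z v}, EE T z v ∧ T v = X → T v = Xᶜᶜ := fun hv => by
      rw [compl_compl]; exact hv.2
    refine L3_ok (X := Xᶜ) h (ncard_compl_three (hX3 hv)) (h3 hv.1) (hq.1.pairs h hq.2) ?_
      (hq.1.en hq.2) (hv.1.en (e hv)) (hv'.1.en (e hv')) hne
      (fun v' h5 => hu1 v' (back' hv hq h5))
      (fun p h5 => hu2 p (back hv hq (by rw [compl_compl] at h5; exact h5)))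
    intro m hm h5
    refine hcl hv hq m hm ?_
    rw [compl_compl] at h5
    exact h5.symm

/-- the arc fields -/
theorem arcFields_w (h : Irr U T) (h4 : ∀ z, (T z).ncard ≤ 4)
    (hK : ∀ z a b c d, DPt T z a b c d → OkC U T z) : ArcFields U T (AA T) where
  arc_ex := by
    rintro z v ⟨hv, q, hq, hc⟩
    exact arc_ex_ok h (okC_of_ee h hK hv) hv hq hc
  arc_end := EE.fld_end
  arc_pair := EE.fld_pair
  arc_len := EE.fld_len h h4
  arc_uniq := EE.fld_uniq h h4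
  arc_symm := EE.fld_symm
  arc_ori := EE.fld_ori h h4
  arc_inn := EE.fld_inn h

/-- the network with palettes -/
theorem dnet_w (h : Irr U T) (h4 : ∀ z, (T z).ncard ≤ 4) (hS1 : S1 T) (hS2 : S2 T)
    (hK : ∀ z a b c d, DPt T z a b c d → OkC U T z) :
    DNetW T (EE T) (AA T) (ore T) (inn U T) where
  net := net_w h h4 hK
  card_z := fun hv => hv.card_z
  card_v := fun hv => hv.card_v
  card_i := fun hv => hv.card_i'
  cov := fun hv hq hc => hv.cov h h4 hq hc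
  ori := fun {z v} _ => ore_or T z v
  inn_mem := fun hv => hv.inn_mem h
  LP1 := fun hv hq hc => hv.lp1 h h4 hq hc
  LP2 := fun hq hv hv' h1 h2 => hq.1.lp2 h hv.1 hv'.1 h1 h2
  LP3 := fun hv hq hc hv' hp hc' hcz hcw => hv.lp3 h h4 hq hc hv' hp hc' hcz hcw
  arc_ex := (arcFields_w h h4 hK).arc_ex
  arc_end := EE.fld_end
  arc_pair := EE.fld_pair
  arc_len := EE.fld_len h h4
  arc_uniq := EE.fld_uniq h h4
  arc_symm := EE.fld_symm
  arc_ori := EE.fld_ori h h4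
  arc_inn := EE.fld_inn h
  auto := fun hv hq hc hm hTm => hv.auto h h4 hq hc hm hTm
  common1 := fun e1 _ e3 e1' _ e3' hne hcv d d' hd n s s' =>
    common1_w h h4 hS1 hK e1 e3 e1' e3' hne hcv d d' hd n s s'
  common2 := fun e1 _ e3 e1' _ e3' hne hcv d d' d2 d2' hs hm s s' =>
    common2_w h h4 hS2 hK e1 e3 e1' e3' hne hcv d d' d2 d2' hs hm s s'
  lemX := fun hu' hpu hpr ht hT => hu'.lemX h hpu hpr ht hT

/-- **No two-pair centre**, circles with a word and clean ends -/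
theorem no_D_of_okC (h : Irr U T) (h4 : ∀ z, (T z).ncard ≤ 4) (hS1 : S1 T) (hS2 : S2 T)
    (hK : ∀ z a b c d, DPt T z a b c d → OkC U T z) :
    ∀ z a b c d, DPt T z a b c d → False := by
  intro z a b c d hz
  obtain ⟨v, q, hv, hq, hc⟩ := start_ok h h4 hz (hK z a b c d hz)
  exact (dnet_w h h4 hS1 hS2 hK).false hv hq hc

end Vale.Agent.P032.H299
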