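import Vale.Agent.P032X.H299.SpcV
import Vale.Agent.P032X.H299.CntN
import Vale.Agent.P032X.H299.K5W

/-!
# P032: a two-pair centre with a special point, five coloured points allowed

`N5 T`: at most five colours, and the points at distance one from a five coloured point have at most
three.  `le4_of_gamN`: if all circles of two-pair centres are `GamV` then there is no five coloured point.
`exists_specialN`: the theorem `exists_specialV` over `N5`.
-/

open Set Filter Topology Metric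

noncomputable section

namespace Vale.Agent.P032.H299

open Vale.Agent.P032.Six Vale.Agent.P032.Words Vale.Agent.P032.S5.H767 Vale.Agent.P032.S5.H349
open Vale.Agent.P032.Net.H672 Vale.Agent.P032.S5.H358 Vale.Agent.P032.H942

variable {U : Fin 6 → Set ℂ} {T : ℂ → Set (Fin 6)} {X : Set (Fin 6)} {z v q q' m : ℂ}
  {a b c d e f : Fin 6}

theorem card_dptN (hz : DPt T z a b c d) : (T z).ncard = 4 := by
  rw [hz.pal, Set.ncard_insert_of_notMem (by simp [hz.ab, hz.ac, hz.ad]) (Set.toFinite _),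
    Set.ncard_insert_of_notMem (by simp [hz.bc, hz.bd]) (Set.toFinite _), Set.ncard_pair hz.cd]

/-- **No five coloured point** if all circles of two-pair centres are `GamV` -/
theorem le4_of_gamN (h : Irr U T)
    (hmin : MnG U T)
    (hN : N5 T) (hK : ∀ z a b c d, DPt T z a b c d → GamV T z) (x : ℂ) : (T x).ncard ≤ 4 := by
  have h5 := hN.le5 x
  by_contra hcon
  have hx : (T x).ncard = 5 := by omega
  exact no_five_okW h hmin (fun c p q r s hD => okW_of_gamV (hK c p q r s hD)) hx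
    fun y hy => hN.nb x y hx hy

/-- **No two-pair centre** if all circles of two-pair centres are `GamV` -/
theorem no_D_of_gamN (h : Irr U T)
    (hmin : MnG U T)
    (hN : N5 T) (hS1 : S1 T) (hS2 : S2 T) (hK : ∀ z a b c d, DPt T z a b c d → GamV T z) :
    ∀ z a b c d, DPt T z a b c d → False :=
  no_D_of_gamV h (le4_of_gamN h hmin hN hK) hS1 hS2 hK

/-- the palettes with both missing colours -/
theorem pal_casesN {y : ℂ} (h4 : (T y).ncard ≤ 4) (C : Ctr U T z a b c d e f)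
    (he : e ∈ T y) (hf : f ∈ T y) (h : 4 ≤ (T y).ncard) :
    T y = {a, b, e, f} ∨ T y = {c, d, e, f} ∨ T y = {a, c, e, f} ∨ T y = {a, d, e, f} ∨
      T y = {b, c, e, f} ∨ T y = {b, d, e, f} := by
  obtain ⟨⟨ab, ac, ad, ae, af⟩, ⟨bc, bd, be, bf⟩, ⟨cd, ce, cf⟩, ⟨de, df⟩, ef⟩ := C.sep
  have h5 := h4
  have hsub : ({e, f} : Set (Fin 6)) ⊆ T y := by
    rintro i (rfl | rfl)
    exacts [he, hf]
  have h6 : (T y \ {e, f}).ncard = 2 := by
    rw [Set.ncard_sdiff hsub (Set.toFinite _), Set.ncard_pair ef]; omega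
  obtain ⟨p, q, hpq, hS⟩ := Set.ncard_eq_two.1 h6
  have hT : T y = {p, q} ∪ {e, f} := by
    rw [← hS, Set.sdiff_union_of_subset hsub]
  have hp : p ∈ T y \ {e, f} := by rw [hS]; simp
  have hq : q ∈ T y \ {e, f} := by rw [hS]; simp
  have hp' : p ≠ e ∧ p ≠ f := ⟨fun h => hp.2 (Or.inl h), fun h => hp.2 (Or.inr h)⟩
  have hq' : q ≠ e ∧ q ≠ f := ⟨fun h => hq.2 (Or.inl h), fun h => hq.2 (Or.inr h)⟩
  have e4 : ∀ r s : Fin 6, ({p, q} : Set (Fin 6)) = {r, s} → T y = {r, s, e, f} := by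
    intro r s hrs
    rw [hT, hrs, four_eq]
  have sw : ∀ r s : Fin 6, ({p, q} : Set (Fin 6)) = {s, r} → ({p, q} : Set (Fin 6)) = {r, s} := by
    intro r s hrs
    rw [hrs, Set.pair_comm]
  rcases C.all p with rfl | rfl | rfl | rfl | h7 | h7
  · rcases C.all q with rfl | rfl | rfl | rfl | h8 | h8
    · exact absurd rfl hpq
    · exact Or.inl (e4 _ _ rfl)
    · exact Or.inr (Or.inr (Or.inl (e4 _ _ rfl)))
    · exact Or.inr (Or.inr (Or.inr (Or.inl (e4 _ _ rfl))))
    · exact absurd h8 hq'.1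
    · exact absurd h8 hq'.2
  · rcases C.all q with rfl | rfl | rfl | rfl | h8 | h8
    · exact Or.inl (e4 _ _ (sw _ _ rfl))
    · exact absurd rfl hpq
    · exact Or.inr (Or.inr (Or.inr (Or.inr (Or.inl (e4 _ _ rfl)))))
    · exact Or.inr (Or.inr (Or.inr (Or.inr (Or.inr (e4 _ _ rfl)))))
    · exact absurd h8 hq'.1
    · exact absurd h8 hq'.2
  · rcases C.all q with rfl | rfl | rfl | rfl | h8 | h8
    · exact Or.inr (Or.inr (Or.inl (e4 _ _ (sw _ _ rfl))))
    · exact Or.inr (Or.inr (Or.inr (Or.inr (Or.inl (e4 _ _ (sw _ _ rfl))))))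
    · exact absurd rfl hpq
    · exact Or.inr (Or.inl (e4 _ _ rfl))
    · exact absurd h8 hq'.1
    · exact absurd h8 hq'.2
  · rcases C.all q with rfl | rfl | rfl | rfl | h8 | h8
    · exact Or.inr (Or.inr (Or.inr (Or.inl (e4 _ _ (sw _ _ rfl)))))
    · exact Or.inr (Or.inr (Or.inr (Or.inr (Or.inr (e4 _ _ (sw _ _ rfl))))))
    · exact Or.inr (Or.inl (e4 _ _ (sw _ _ rfl)))
    · exact absurd rfl hpq
    · exact absurd h8 hq'.1
    · exact absurd h8 hq'.2
  · exact absurd h7 hp'.1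
  · exact absurd h7 hp'.2

/-- **A two-pair centre with a special point**, five coloured points allowed -/
theorem exists_specialN (h : Irr U T)
    (hmin : MnG U T)
    (hN : N5 T) (hS1 : S1 T) (hS2 : S2 T)
    (hz : DPt T z a b c d) : ∃ z a b c d e f V, SpcV T z a b c d e f V := by
  by_contra hcon
  push Not at hcon
  refine no_D_of_gamN h hmin hN hS1 hS2 ?_ z a b c d hz
  clear hz
  intro z a b c d hz
  obtain ⟨e, f, nd⟩ := hz.exists_nodup
  have C := ctr_of_dpt h hz nd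
  have ef_c : ({e, f} : Set (Fin 6)) = (T z)ᶜ := ef_eq C
  have ndac : [c, d, a, b, e, f].Nodup := C.swapAC.nd
  have sub_ef : ∀ {y : ℂ}, (T z)ᶜ ⊆ T y → e ∈ T y ∧ f ∈ T y := by
    intro y hy
    rw [← ef_c] at hy
    exact ⟨hy (Or.inl rfl), hy (Or.inr rfl)⟩
  refine ⟨?_, ?_⟩
  · intro P hP hP2 y hy
    by_contra h5
    push Not at h5
    obtain ⟨p, hp⟩ := closure_nonempty_iff.1 ⟨y, hy⟩
    rcases ex_cases C hP hp with rfl | rfl
    · exact hcon z a b c d e f y ⟨hz, nd, dist_of_closure hy, h5, Or.inl hy⟩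
    · exact hcon z c d a b e f y ⟨hz.swap, ndac, dist_of_closure hy, h5, Or.inl hy⟩
  · intro y y' hy hy' hyy hs hs'
    by_contra h5
    push Not at h5
    obtain ⟨he, hf⟩ := sub_ef hs
    obtain ⟨he', hf'⟩ := sub_ef hs'
    rcases pal_casesN (hN.le4 (x := z) hy (card_dptN hz).ge) C he hf h5 with h6 | h6 | h6 | h6 | h6 | h6
    · exact hcon z a b c d e f y ⟨hz, nd, hy, h5, Or.inr ⟨Or.inl h6, y', hy', hyy, he', hf'⟩⟩
    · exact hcon z c d a b e f y ⟨hz.swap, ndac, hy, h5, Or.inr ⟨Or.inl h6, y', hy', hyy, he', hf'⟩⟩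
    · exact hcon z a b c d e f y ⟨hz, nd, hy, h5, Or.inr ⟨Or.inr h6, y', hy', hyy, he', hf'⟩⟩
    · exact hcon z a b d c e f y ⟨hz.swap34, nd34 nd, hy, h5, Or.inr ⟨Or.inr h6, y', hy',
        hyy, he', hf'⟩⟩
    · exact hcon z b a c d e f y ⟨hz.swap12, nd12 nd, hy, h5, Or.inr ⟨Or.inr h6, y', hy',
        hyy, he', hf'⟩⟩
    · exact hcon z b a d c e f y ⟨hz.swap12.swap34, nd34 (nd12 nd), hy, h5, Or.inr ⟨Or.inr h6, y',
        hy', hyy, he', hf'⟩⟩

end Vale.Agent.P032.H299
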