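import Vale.Agent.P032X.H299.GamV
import Vale.Agent.P032X.H299.SpcW

/-!
# P032: a two-pair centre with a special point, two kinds

`GamV`: what is needed of the circle of a two-pair centre if the static facts `S1`, `S2` on common
points hold.  `exists_specialV`: if there is a two-pair centre then there is one with a four
coloured point `V` on its circle of one of two kinds: (A) `V` in the closure of the exact
`ab`-arcs; (C) both missing colours at `V` and at a point of the circle at distance one from `V`.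
-/

open Set Filter Topology Metric

noncomputable section

namespace Vale.Agent.P032.H299

open Vale.Agent.P032.Six Vale.Agent.P032.Words Vale.Agent.P032.S5.H767 Vale.Agent.P032.S5.H349
open Vale.Agent.P032.Net.H672 Vale.Agent.P032.S5.H358 Vale.Agent.P032.H942

variable {U : Fin 6 → Set ℂ} {T : ℂ → Set (Fin 6)} {X : Set (Fin 6)} {z v q q' m : ℂ}
  {a b c d e f : Fin 6}

/-- what is needed of the circle of a two-pair centre -/
structure GamV (T : ℂ → Set (Fin 6)) (z : ℂ) : Prop where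
  ends : ∀ P : Set (Fin 6), P ⊆ T z → P.ncard = 2 → ∀ y, y ∈ closure (Ex T z P) →
    (T y).ncard ≤ 3
  adj : ∀ y y', dist y z = 1 → dist y' z = 1 → dist y y' = 1 → (T z)ᶜ ⊆ T y → (T z)ᶜ ⊆ T y' →
    (T y).ncard ≤ 3

/-- points with a pair letter -/
theorem le_of_pair_v (C : Ctr U T z a b c d e f) (K : GamV T z) {y : ℂ} {l : Fin 4}
    (hl : y ∈ Lt T z a b c d e f l) (h2 : 2 ≤ l.val) : (T y).ncard ≤ 3 := by
  obtain ⟨⟨ab, ac, ad, ae, af⟩, ⟨bc, bd, be, bf⟩, ⟨cd, ce, cf⟩, ⟨de, df⟩, ef⟩ := C.sep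
  fin_cases l
  · exact absurd h2 (by decide)
  · exact absurd h2 (by decide)
  · refine K.ends {a, b} ?_ (Set.ncard_pair ab) y hl
    rw [C.pal]; rintro i (rfl | rfl) <;> simp
  · refine K.ends {c, d} ?_ (Set.ncard_pair cd) y hl
    rw [C.pal]; rintro i (rfl | rfl) <;> simp

/-- **(dbl)** -/
theorem dbl_v (C : Ctr U T z a b c d e f) (K : GamV T z) {y y' y'' : ℂ} {l m : Fin 4}
    (hlm : l ≠ m) (hyy : dist y y' = 1) (hyy' : dist y y'' = 1) (hne : y'' ≠ y')
    (hne2 : y'' + y' ≠ 2 * y)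
    (hl : y ∈ Lt T z a b c d e f l) (hl' : y' ∈ Lt T z a b c d e f l)
    (hm : y ∈ Lt T z a b c d e f m) (hm' : y'' ∈ Lt T z a b c d e f m) :
    l.val < 2 ∧ m.val < 2 := by
  obtain ⟨⟨ab, ac, ad, ae, af⟩, ⟨bc, bd, be, bf⟩, ⟨cd, ce, cf⟩, ⟨de, df⟩, ef⟩ := C.sep
  have hne' : y' ≠ y'' := hne.symm
  have hne2' : y' + y'' ≠ 2 * y := by rw [add_comm]; exact hne2
  have hy := Lt_dist hl
  have hy' := Lt_dist hl'
  have hy'' := Lt_dist hm'
  have kl := Lt_col C.irr hl
  have kl' := Lt_col C.irr hl'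
  have km := Lt_col C.irr hm
  have km' := Lt_col C.irr hm'
  have e23 : ∀ n : Fin 4, ¬ n.val < 2 → n = 2 ∨ n = 3 := by decide
  have hl2 : l.val < 2 := by
    by_contra hcon
    have h3 := le_of_pair_v C K hl (not_lt.1 hcon)
    have h3' := le_of_pair_v C K hl' (not_lt.1 hcon)
    rcases e23 l hcon with rfl | rfl
    · exact C.dblPair hlm hyy hyy' hne hne2 h3 h3' ab hy hy' (kl (Or.inl rfl)) (kl (Or.inr rfl))
        (kl' (Or.inl rfl)) (kl' (Or.inr rfl)) (fun h => C.ne_col hlm (Or.inl rfl) h rfl)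
        (fun h => C.ne_col hlm (Or.inr rfl) h rfl) hm hm'
    · exact C.dblPair hlm hyy hyy' hne hne2 h3 h3' cd hy hy' (kl (Or.inl rfl)) (kl (Or.inr rfl))
        (kl' (Or.inl rfl)) (kl' (Or.inr rfl)) (fun h => C.ne_col hlm (Or.inl rfl) h rfl)
        (fun h => C.ne_col hlm (Or.inr rfl) h rfl) hm hm'
  have hm2 : m.val < 2 := by
    by_contra hcon
    have h3 := le_of_pair_v C K hm (not_lt.1 hcon)
    have h3'' := le_of_pair_v C K hm' (not_lt.1 hcon)
    rcases e23 m hcon with rfl | rfl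
    · exact C.dblPair hlm.symm hyy' hyy hne' hne2' h3 h3'' ab hy hy'' (km (Or.inl rfl))
        (km (Or.inr rfl)) (km' (Or.inl rfl)) (km' (Or.inr rfl))
        (fun h => C.ne_col hlm.symm (Or.inl rfl) h rfl)
        (fun h => C.ne_col hlm.symm (Or.inr rfl) h rfl) hl hl'
    · exact C.dblPair hlm.symm hyy' hyy hne' hne2' h3 h3'' cd hy hy'' (km (Or.inl rfl))
        (km (Or.inr rfl)) (km' (Or.inl rfl)) (km' (Or.inr rfl))
        (fun h => C.ne_col hlm.symm (Or.inl rfl) h rfl)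
        (fun h => C.ne_col hlm.symm (Or.inr rfl) h rfl) hl hl'
  exact ⟨hl2, hm2⟩

/-- **The word** -/
theorem rawW_gamV (C : Ctr U T z a b c d e f) (K : GamV T z) : RawW (Xs T z a b c d e f) := by
  have hp : ∀ (u : ℝ) (l : Fin 4), 2 ≤ l.val → u ∈ Xs T z a b c d e f l →
      (T (pt z u)).ncard ≤ 3 := fun u l hl hu => le_of_pair_v C K hu hl
  refine ⟨C.x_closed, C.x_cover, C.x_per, ?_, ?_, ?_, fun u l h h' => C.x_own h h',
    fun u l h h' => C.x_own' h h', ?_, ?_⟩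
  · exact fun u h => C.x_anti (hp u 2 (by decide) h) h
  · exact fun u h => C.x_ac (hp u 2 (by decide) h) h
  · intro u l m n hl hm hn
    by_cases h2 : 2 ≤ l.val ∨ 2 ≤ m.val ∨ 2 ≤ n.val
    · have h3 : (T (pt z u)).ncard ≤ 3 := by
        rcases h2 with h2 | h2 | h2
        exacts [hp u l h2 hl, hp u m h2 hm, hp u n h2 hn]
      exact C.x_two h3 hl hm hn
    · push Not at h2
      have key : ∀ l m n : Fin 4, l.val < 2 → m.val < 2 → n.val < 2 → l = m ∨ m = n ∨ n = l := by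
        decide
      exact key l m n h2.1 h2.2.1 h2.2.2
  · intro u l m h1 h2 h4 h5
    by_contra hlm
    by_cases hl2 : 2 ≤ l.val
    · exact hlm (C.x_swap (hp u l hl2 h1) (hp _ l hl2 h2) h1 h2 h4 h5)
    by_cases hm2 : 2 ≤ m.val
    · exact hlm (C.x_swap (hp u m hm2 h4) (hp _ m hm2 h5) h1 h2 h4 h5)
    push Not at hl2 hm2
    have hef : ∀ w : ℝ, w ∈ Xs T z a b c d e f l → w ∈ Xs T z a b c d e f m →
        (T z)ᶜ ⊆ T (pt z w) := by
      intro w k1 k2
      rw [← ef_eq C]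
      rcases val_lt_two hl2 hm2 hlm with ⟨rfl, rfl⟩ | ⟨rfl, rfl⟩
      · rintro i (rfl | rfl)
        exacts [k1.2, k2.2]
      · rintro i (rfl | rfl)
        exacts [k2.2, k1.2]
    have s1 := hef u h1 h4
    have s2 := hef (u + 1) h2 h5
    have t1 := K.adj _ _ (dist_pt z u) (dist_pt z (u + 1)) (dist_pt_one z u) s1 s2
    have t2 := K.adj _ _ (dist_pt z (u + 1)) (dist_pt z u)
      (by rw [dist_comm]; exact dist_pt_one z u) s2 s1
    exact hlm (C.x_swap t1 t2 h1 h2 h4 h5)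
  · intro u l m hlm h1 h2 h4 h5
    obtain ⟨k1, k2⟩ := pt_off z u
    have e1 : u + 1 + 1 = u + 2 := by ring
    have k3 := dist_pt_one z (u + 1)
    rw [e1] at k3
    exact dbl_v C K hlm (by rw [dist_comm]; exact dist_pt_one z u) k3 k1 k2 h2 h1 h4 h5

/-- a `GamV` circle is good -/
theorem okW_of_gamV (K : GamV T z) : OkW U T z :=
  ⟨fun _ _ _ _ _ _ C' => rawW_gamV C' K, K.ends⟩

/-- **No two-pair centre** if all circles of two-pair centres are `GamV` -/
theorem no_D_of_gamV (h : Irr U T) (h4 : ∀ z, (T z).ncard ≤ 4) (hS1 : S1 T) (hS2 : S2 T)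
    (hK : ∀ z a b c d, DPt T z a b c d → GamV T z) :
    ∀ z a b c d, DPt T z a b c d → False :=
  no_D_of_okW h h4 hS1 hS2 fun z a b c d hz => okW_of_gamV (hK z a b c d hz)

/-- the special points `V` of the circle of `z`: (A) on the closure of the exact `ab`-arcs; (C) both
missing colours at `V` and at a point of the circle at distance one -/
structure SpcV (T : ℂ → Set (Fin 6)) (z : ℂ) (a b c d e f : Fin 6) (V : ℂ) : Prop where
  dpt : DPt T z a b c d
  nd : [a, b, c, d, e, f].Nodup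
  dist : dist V z = 1
  four : 4 ≤ (T V).ncard
  kind : V ∈ closure (Ex T z {a, b}) ∨
    ((T V = {a, b, e, f} ∨ T V = {a, c, e, f}) ∧
      ∃ V', Dist.dist V' z = 1 ∧ Dist.dist V V' = 1 ∧ e ∈ T V' ∧ f ∈ T V')

/-- **A two-pair centre with a special point.** -/
theorem exists_specialV (h : Irr U T) (h4 : ∀ z, (T z).ncard ≤ 4) (hS1 : S1 T) (hS2 : S2 T)
    (hz : DPt T z a b c d) : ∃ z a b c d e f V, SpcV T z a b c d e f V := by
  by_contra hcon
  push Not at hcon
  refine no_D_of_gamV h h4 hS1 hS2 ?_ z a b c d hz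
  clear hz
  intro z a b c d hz
  obtain ⟨e, f, nd⟩ := hz.exists_nodup
  have C := ctr_of_dpt h hz nd
  have ef_c : ({e, f} : Set (Fin 6)) = (T z)ᶜ := ef_eq C
  have ndac : [c, d, a, b, e, f].Nodup := C.swapAC.nd
  have sub_ef : ∀ {y : ℂ}, (T z)ᶜ ⊆ T y → e ∈ T y ∧ f ∈ T y := by
    intro y hy
    rw [← ef_c] at hy
    exact ⟨hy (Or.inl rfl), hy (Or.inr rfl)⟩
  refine ⟨?_, ?_⟩
  · intro P hP hP2 y hy
    by_contra h5
    push Not at h5
    obtain ⟨p, hp⟩ := closure_nonempty_iff.1 ⟨y, hy⟩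
    rcases ex_cases C hP hp with rfl | rfl
    · exact hcon z a b c d e f y ⟨hz, nd, dist_of_closure hy, h5, Or.inl hy⟩
    · exact hcon z c d a b e f y ⟨hz.swap, ndac, dist_of_closure hy, h5, Or.inl hy⟩
  · intro y y' hy hy' hyy hs hs'
    by_contra h5
    push Not at h5
    obtain ⟨he, hf⟩ := sub_ef hs
    obtain ⟨he', hf'⟩ := sub_ef hs'
    rcases pal_cases h4 C he hf h5 with h6 | h6 | h6 | h6 | h6 | h6
    · exact hcon z a b c d e f y ⟨hz, nd, hy, h5, Or.inr ⟨Or.inl h6, y', hy', hyy, he', hf'⟩⟩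
    · exact hcon z c d a b e f y ⟨hz.swap, ndac, hy, h5, Or.inr ⟨Or.inl h6, y', hy', hyy, he', hf'⟩⟩
    · exact hcon z a b c d e f y ⟨hz, nd, hy, h5, Or.inr ⟨Or.inr h6, y', hy', hyy, he', hf'⟩⟩
    · exact hcon z a b d c e f y ⟨hz.swap34, nd34 nd, hy, h5, Or.inr ⟨Or.inr h6, y', hy',
        hyy, he', hf'⟩⟩
    · exact hcon z b a c d e f y ⟨hz.swap12, nd12 nd, hy, h5, Or.inr ⟨Or.inr h6, y', hy',
        hyy, he', hf'⟩⟩
    · exact hcon z b a d c e f y ⟨hz.swap12.swap34, nd34 (nd12 nd), hy, h5, Or.inr ⟨Or.inr h6, y',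
        hy', hyy, he', hf'⟩⟩

end Vale.Agent.P032.H299
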